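import Vale.Agent.P032X.H357.RunH

/-!
# P032: the run of the states with event bits

`Ev` : list of events, an event is a list of literals of a model (letters before and after the time `u`, colours of the
points, ..).  The bit of the event `j` is a free atom, `fA j r` = `T 4093 (4 j + r)` in the reading `r` : false at the
start, `after` = `before` or the event occurs in this model.  `Pr` : pair lemmas `(j, c)` : no event `j` at a time
`s < u` if the literals `c` hold at the time `u`.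

* `LegAt`, `evS` : the legal models at the time `u`, the times of an event,
* `pdrE` : `pdrH` with event bits.  The times of an event need not be closed: the bits of their closure in the open
  intervals `(u1, u)` are used, and the bits of the run are some of the true ones.
-/

open Set Filter Topology Metric

noncomputable section

namespace Vale.Agent.P032.H491

open Vale.Agent.P032.Six Vale.Agent.P032.H892 Vale.Agent.P032.H913 Vale.Agent.P032.S5.H767 Vale.Agent.P032.H61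
  Vale.Agent.P032.H357 Vale.Agent.P032.H357.MK
open Vale.Agent.P032.H820.K (nbf Md En a0 a1 a2 a3 a4 av lv ps ng Ho)

variable {U : Fin 6 → Set ℂ} {T : ℂ → Set (Fin 6)} {NP NW TB TC : ℕ}

/-- the bit of the event `j` in the reading `r` -/
def fA (j r : ℕ) : ℕ := En 4 4093 0 0 (Nat.add (Nat.mul 4 j) r)

/-- the legal models at the time `u` -/
def LegAt (F : Hy U T) (B : Tb NP NW TB TC) (z : ℂ) (σ : Equiv.Perm (Fin 6)) (u1 : ℝ)
    (s0 s1 : Cn NW TC × Fin 6 → Fin 6 × Fin 6) (u : ℝ) (M : Md 2 NP NW (nbf 2 TB)) : Prop :=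
  ∃ (hu : u ∈ Ioo u1 (u1 + 1)) (s0' s1' L R : Fin NW × Fin 6 → Fin 6 × Fin 6)
    (S : St4 U T (Yw u1 u TC z NW) u1 u s0' s1' L R), rs TC s0' = s0 ∧ rs TC s1' = s1 ∧ M = mS F B z σ hu S

/-- the times of the event `e` -/
def evS (F : Hy U T) (B : Tb NP NW TB TC) (z : ℂ) (σ : Equiv.Perm (Fin 6)) (u1 : ℝ)
    (s0 s1 : Cn NW TC × Fin 6 → Fin 6 × Fin 6) (e : List ℕ) : Set ℝ :=
  {u | ∃ M, LegAt F B z σ u1 s0 s1 u M ∧ ∀ l ∈ e, lv M l}

theorem evS_sub {F : Hy U T} {B : Tb NP NW TB TC} {z : ℂ} {σ : Equiv.Perm (Fin 6)} {u1 : ℝ}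
    {s0 s1 : Cn NW TC × Fin 6 → Fin 6 × Fin 6} {e : List ℕ} : evS F B z σ u1 s0 s1 e ⊆ Ioo u1 (u1 + 1) := by
  rintro u ⟨M, ⟨hu, -⟩, -⟩
  exact hu

/-- the values of the free atoms with event bits -/
def XE (X : XV NW) (f : ℕ → Prop) : XV NW := fun u s0 s1 L R x q => if x = 4093 then f q else X u s0 s1 L R x q

theorem xok_XE {X : XV NW} {nm : ℕ} {Kc : Fin nm → Prop} {Hs : Fin nm → Set ℝ} {u1 : ℝ} (hX : Xok X Kc Hs u1)
    (f : ℕ → Prop) : Xok (XE X f) Kc Hs u1 := by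
  intro u s0 s1 L R i r hr
  show (if (4095 : ℕ) = 4093 then f _ else X u s0 s1 L R 4095 _) ↔ _
  rw [if_neg (by norm_num)]
  exact hX u s0 s1 L R i r hr

/-- the values of the event bits from their values in the four readings -/
def fv {ne : ℕ} (G : ℕ → Fin ne → Prop) (q : ℕ) : Prop := ∃ h : q / 4 < ne, G (q % 4) ⟨q / 4, h⟩

/-- atoms of the points -/
def okN (NP n : ℕ) : Bool := Nat.ble (Nat.succ (Nat.mod (Nat.div n 16) 4096)) NP

theorem okN_spec {n : ℕ} (h : okN NP n = true) : a1 n < NP := by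
  unfold okN at h
  rw [Nat.ble_eq] at h
  exact h

theorem lv_xT {K : ℕ} {nb : ℕ → ℕ → ℕ} {M : Md K NP NW nb} {X : ℕ → ℕ → Prop} {l : ℕ}
    (h : okN NP (Nat.div l 2) = true) : lv (xT M X) l ↔ lv M l := by
  have h1 : a1 (l / 2) < NP := okN_spec h
  unfold lv
  rw [xT_av (Or.inl h1)]

/-- state literals with `nm` monitors and `ne` event bits -/
def okE (NW TC nm ne n : ℕ) : Bool :=
  okH NW TC nm n || (Nat.beq (Nat.mod n 16) 4 && Nat.beq (Nat.mod (Nat.div n 16) 4096) 4093 &&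
    Nat.ble (Nat.succ (Nat.div n 134217728)) ne)

theorem okE_spec {nm ne n : ℕ} (h : okE NW TC nm ne n = true) : (okH NW TC nm n = true ∧ ¬ (a0 n = 4 ∧ a1 n = 4093)) ∨
    (a0 n = 4 ∧ a1 n = 4093 ∧ a4 n < ne) := by
  unfold okE at h
  rw [Bool.or_eq_true, Bool.and_eq_true, Bool.and_eq_true, nbeq, nbeq, Nat.ble_eq] at h
  rcases h with h | ⟨⟨h1, h2⟩, h3⟩
  · left
    refine ⟨h, fun h2 => ?_⟩
    rcases okH_spec h with h3 | ⟨h3, h4, -⟩
    · exact okA_kind h3 h2.1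
    · rw [h4] at h2
      exact absurd h2.2 (by norm_num)
  · exact Or.inr ⟨h1, h2, h3⟩

/-- the reading of a state atom, a monitor or an event bit -/
def rnE (r n : ℕ) : ℕ :=
  bif Nat.beq (Nat.mod n 16) 4 && Nat.beq (Nat.mod (Nat.div n 16) 4096) 4093 then
    En 4 4093 0 0 (Nat.add (Nat.mul 4 (Nat.div n 134217728)) r) else rnH r n

/-- the reading of a state literal -/
def rdE (r l : ℕ) : ℕ := Nat.add (Nat.mul 2 (rnE r (Nat.div l 2))) (Nat.mod l 2)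

/-- the reading of a clause -/
def rcE (r : ℕ) (c : List ℕ) : List ℕ := c.map (rdE r)

/-- the value of a state atom, a monitor or an event bit -/
def svE (σ : Equiv.Perm (Fin 6)) (T : ℂ → Set (Fin 6)) (Z : Cn NW TC → ℂ) {nm ne : ℕ} (Kc : Fin nm → Prop)
    (s : Cn NW TC × Fin 6 → Fin 6 × Fin 6) (A D : GB (Cn NW TC ⊕ Fin nm)) (Fm : Fin ne → Prop) (n : ℕ) : Prop :=
  if a0 n = 4 ∧ a1 n = 4093 then ∃ h : a4 n < ne, Fm ⟨a4 n, h⟩ else svH σ T Z Kc s A D n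

/-- the value of a state literal -/
def slE (σ : Equiv.Perm (Fin 6)) (T : ℂ → Set (Fin 6)) (Z : Cn NW TC → ℂ) {nm ne : ℕ} (Kc : Fin nm → Prop)
    (s : Cn NW TC × Fin 6 → Fin 6 × Fin 6) (A D : GB (Cn NW TC ⊕ Fin nm)) (Fm : Fin ne → Prop) (l : ℕ) : Prop :=
  if l % 2 = 0 then svE σ T Z Kc s A D Fm (l / 2) else ¬ svE σ T Z Kc s A D Fm (l / 2)

/-- the closed sets of the states -/
def Df (T : ℂ → Set (Fin 6)) (Z : Cn NW TC → ℂ) {nm ne : ℕ} (Hs : Fin nm → Set ℝ) (W : Fin ne → Set ℝ) :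
    (Cn NW TC ⊕ Fin nm) ⊕ Fin ne → Fin 6 → Set ℝ :=
  Sum.elim (Dh T Z Hs) fun j _ => closure (W j)

theorem bAH_df {Z : Cn NW TC → ℂ} {nm ne : ℕ} {Hs : Fin nm → Set ℝ} {W : Fin ne → Set ℝ} {r : ℕ} {u1 u : ℝ} :
    (fun c => bAH (Df T Z Hs W) r u1 u (Sum.inl c)) = bAH (Dh T Z Hs) r u1 u := by
  unfold bAH
  split_ifs <;> rfl

theorem bBH_df {Z : Cn NW TC → ℂ} {nm ne : ℕ} {Hs : Fin nm → Set ℝ} {W : Fin ne → Set ℝ} {r : ℕ} {u1 u : ℝ} :
    (fun c => bBH (Df T Z Hs W) r u1 u (Sum.inl c)) = bBH (Dh T Z Hs) r u1 u := by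
  unfold bBH
  split_ifs <;> rfl

section
variable {F : Hy U T} {B : Tb NP NW TB TC} {z : ℂ} {σ : Equiv.Perm (Fin 6)} {u1 u : ℝ}
  {hu : u ∈ Ioo u1 (u1 + 1)} {X : XV NW} {nm ne : ℕ} {Kc : Fin nm → Prop} {Hs : Fin nm → Set ℝ}
  {G : ℕ → Fin ne → Prop}
  {s0 s1 L R : Fin NW × Fin 6 → Fin 6 × Fin 6} {S : St4 U T (Yw u1 u TC z NW) u1 u s0 s1 L R} {n : ℕ}

theorem av_fA (hNP : NP ≤ 4093) {j r : ℕ} (hr : r < 4) :
    av (xT (mS F B z σ hu S) (XE X (fv G) u s0 s1 L R)) (fA j r) ↔ ∃ h : j < ne, G r ⟨j, h⟩ := by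
  unfold fA
  rw [xT_fr hNP (by norm_num)]
  show (if (4093 : ℕ) = 4093 then fv G (4 * j + r) else _) ↔ _
  rw [if_pos rfl]
  unfold fv
  have e1 : (4 * j + r) / 4 = j := by omega
  have e2 : (4 * j + r) % 4 = r := by omega
  simp only [e1, e2]

/-- **the readings of state atoms with monitors and event bits** -/
theorem av_rnE (hX : Xok X Kc Hs u1) (hNP : NP ≤ 4093) {r : ℕ} (hr : r < 4) (hn : okE NW TC nm ne n = true) :
    av (xT (mS F B z σ hu S) (XE X (fv G) u s0 s1 L R)) (rnE r n) ↔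
    svE σ T (Zf u1 TC z NW) Kc (stv r (rs TC s0) (rs TC L) (rs TC R) (rs TC s1))
      (bAH (Dh T (Zf u1 TC z NW) Hs) r u1 u) (bBH (Dh T (Zf u1 TC z NW) Hs) r u1 u) (G r) n := by
  rcases okE_spec hn with ⟨h1, h2⟩ | ⟨h1, h2, h3⟩
  · have e : rnE r n = rnH r n := by
      unfold rnE
      have : (Nat.beq (Nat.mod n 16) 4 && Nat.beq (Nat.mod (Nat.div n 16) 4096) 4093) = false := by
        rw [← Bool.not_eq_true, Bool.and_eq_true, nbeq, nbeq]; exact h2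
      rw [this, cond_false]
    rw [e, av_rnH (xok_XE hX _) (by omega) hr h1]
    unfold svE
    rw [if_neg h2]
  · have e : rnE r n = fA (a4 n) r := by
      unfold rnE
      have : (Nat.beq (Nat.mod n 16) 4 && Nat.beq (Nat.mod (Nat.div n 16) 4096) 4093) = true := by
        rw [Bool.and_eq_true, nbeq, nbeq]; exact ⟨h1, h2⟩
      rw [this, cond_true]
      rfl
    rw [e, av_fA hNP hr]
    unfold svE
    rw [if_pos ⟨h1, h2⟩]

theorem lv_rdE (hX : Xok X Kc Hs u1) (hNP : NP ≤ 4093) {r l : ℕ} (hr : r < 4)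
    (hl : okE NW TC nm ne (Nat.div l 2) = true) :
    lv (xT (mS F B z σ hu S) (XE X (fv G) u s0 s1 L R)) (rdE r l) ↔
    slE σ T (Zf u1 TC z NW) Kc (stv r (rs TC s0) (rs TC L) (rs TC R) (rs TC s1))
      (bAH (Dh T (Zf u1 TC z NW) Hs) r u1 u) (bBH (Dh T (Zf u1 TC z NW) Hs) r u1 u) (G r) l := by
  refine lv_two.trans ?_
  unfold slE
  rw [show Nat.div l 2 = l / 2 from rfl] at hl ⊢
  rw [av_rnE hX hNP hr hl]

theorem ho_rcE (hX : Xok X Kc Hs u1) (hNP : NP ≤ 4093) {r : ℕ} {C : List ℕ} (hr : r < 4)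
    (hC : ∀ l ∈ C, okE NW TC nm ne (Nat.div l 2) = true) :
    Ho (xT (mS F B z σ hu S) (XE X (fv G) u s0 s1 L R)) (rcE r C) ↔ ∃ l ∈ C,
      slE σ T (Zf u1 TC z NW) Kc (stv r (rs TC s0) (rs TC L) (rs TC R) (rs TC s1))
      (bAH (Dh T (Zf u1 TC z NW) Hs) r u1 u) (bBH (Dh T (Zf u1 TC z NW) Hs) r u1 u) (G r) l := by
  constructor
  · rintro ⟨l', h1, h2⟩
    obtain ⟨l, h3, rfl⟩ := List.mem_map.1 h1
    exact ⟨l, h3, (lv_rdE hX hNP hr (hC l h3)).1 h2⟩
  · rintro ⟨l, h1, h2⟩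
    exact ⟨rdE r l, List.mem_map.2 ⟨l, h1, rfl⟩, (lv_rdE hX hNP hr (hC l h1)).2 h2⟩

end

/-- the readings start, before and after are equal -/
def Q0E (TC nm ne : ℕ) (M : Md 2 NP NW (nbf 2 TB)) : Prop :=
  ∀ n, okE NW TC nm ne n = true → ∀ r < 3, (av M (rnE r n) ↔ av M (rnE 0 n))

/-- the readings before, after and end are equal -/
def Q1E (TC nm ne : ℕ) (M : Md 2 NP NW (nbf 2 TB)) : Prop :=
  ∀ n, okE NW TC nm ne n = true → ∀ r < 4, 0 < r → (av M (rnE r n) ↔ av M (rnE 3 n))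

/-- the clause of a pair lemma -/
def prC (p : ℕ × List ℕ) : List ℕ := ng (fA p.1 1) :: p.2.map ngl

/-- **A certified pattern with `nm` monitors, the events `Ev` and the pair lemmas `Pr`** -/
structure PatE (NP NW TB TC nm : ℕ) (E : List (List ℕ)) (P : List ℕ) (Ev : List (List ℕ)) (Pr : List (ℕ × List ℕ))
    (Inv : List (List ℕ)) : Prop where
  p0 : ∀ l ∈ P, okP NP NW TC nm (Nat.div l 2) = true
  i0 : ∀ C ∈ Inv, ∀ l ∈ C, okE NW TC nm Ev.length (Nat.div l 2) = true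
  v0 : ∀ e ∈ Ev, ∀ l ∈ e, okN NP (Nat.div l 2) = true
  r0 : ∀ p ∈ Pr, ∀ l ∈ p.2, okN NP (Nat.div l 2) = true
  init : ∀ M : Md 2 NP NW (nbf 2 TB), (∀ c ∈ E, Ho M c) → (∀ l ∈ P, lv M l) → Q0E TC nm Ev.length M →
    (∀ j, ¬ av M (fA j 0)) → ∀ C ∈ Inv, Ho M (rcE 0 C)
  step : ∀ M : Md 2 NP NW (nbf 2 TB), (∀ c ∈ E, Ho M c) → (∀ l ∈ P, lv M l) →
    (∀ j, av M (fA j 1) → av M (fA j 2)) →
    (∀ j (h : j < Ev.length), (∀ l ∈ Ev[j], lv M l) → av M (fA j 2)) →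
    (∀ j (h : j < Ev.length), av M (fA j 2) → av M (fA j 1) ∨ ∀ l ∈ Ev[j], lv M l) →
    (∀ p ∈ Pr, Ho M (prC p)) → (∀ C ∈ Inv, Ho M (rcE 1 C)) → ∀ C ∈ Inv, Ho M (rcE 2 C)
  fin : ∀ M : Md 2 NP NW (nbf 2 TB), (∀ c ∈ E, Ho M c) → (∀ l ∈ P, lv M l) → Q1E TC nm Ev.length M →
    (∀ p ∈ Pr, Ho M (prC p)) → (∀ C ∈ Inv, Ho M (rcE 3 C)) → False

section
variable {F : Hy U T} {B : Tb NP NW TB TC} {z : ℂ} {σ : Equiv.Perm (Fin 6)} {u1 : ℝ} {X X' : XV NW} {nm : ℕ}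
  {Kc : Fin nm → Prop} {Hs : Fin nm → Set ℝ} {s0 s1 : Cn NW TC × Fin 6 → Fin 6 × Fin 6}

/-- the literals of class 0 have the same value in all legal models, other free atoms allowed -/
theorem lv_transferE (hX : Xok X Kc Hs u1) (hX' : Xok X' Kc Hs u1) (hNP : NP ≤ 4095) {M M' : Md 2 NP NW (nbf 2 TB)}
    (h : LegX F B z σ X u1 s0 s1 M) (h' : LegX F B z σ X' u1 s0 s1 M') {l : ℕ}
    (hl : okP NP NW TC nm (Nat.div l 2) = true) : lv M l ↔ lv M' l := by
  unfold okP at hl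
  rw [Bool.or_eq_true, Bool.and_eq_true, Bool.and_eq_true, Nat.ble_eq, Nat.ble_eq, nbeq] at hl
  obtain ⟨u, hu, t0, t1, L, R, S, e0, e1, rfl⟩ := h
  obtain ⟨v, hv, t0', t1', L', R', S', e0', e1', rfl⟩ := h'
  have key : av (xT (mS F B z σ hu S) (X u t0 t1 L R)) (l / 2) ↔
      av (xT (mS F B z σ hv S') (X' v t0' t1' L' R')) (l / 2) := by
    rcases hl with hl | hl
    · have h1 : av (mS F B z σ hu S) (l / 2) ↔ av (mS F B z σ hv S') (l / 2) :=
        av_transfer (e0.trans e0'.symm) (e1.trans e1'.symm) hl.1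
      have h2 : a1 (l / 2) < NP := hl.2
      rw [xT_av (Or.inl h2), xT_av (Or.inl h2), h1]
    · have e : l / 2 = hA (Nat.div (Nat.div (l / 2) 134217728) 4) 0 := hl.1
      rw [e]
      unfold hA
      rw [xT_fr hNP (by norm_num), xT_fr hNP (by norm_num)]
      have k1 := hX u t0 t1 L R ⟨_, hl.2⟩ 0 (by norm_num)
      have k2 := hX' v t0' t1' L' R' ⟨_, hl.2⟩ 0 (by norm_num)
      exact k1.trans k2.symm
  unfold lv
  rw [key]

/-- a true bit of an event comes from an earlier time -/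
theorem ex_ev {W : Set ℝ} (hW : W ⊆ Ioo u1 (u1 + 1)) {u : ℝ} {m : Fin 6}
    (h : (closure W ∩ Ioo (u1 + m.val) (u + m.val)).Nonempty) : ∃ s ∈ W, s < u := by
  obtain ⟨v, hv1, hv2⟩ := h
  obtain ⟨s, hs1, hs2⟩ := mem_closure_iff.1 hv1 _ isOpen_Ioo hv2
  refine ⟨s, hs2, ?_⟩
  have h1 := hW hs2
  have h3 : (m.val : ℝ) < 1 := by linarith [hs1.1, h1.2]
  have h4 : m.val = 0 := by
    have : m.val < 1 := by exact_mod_cast h3
    omega
  have h5 := hs1.2
  rw [h4] at h5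
  simpa using h5

/-- **A certified pattern is not realised (with monitors and events).**  `hPr` : the pair lemmas. -/
theorem pdrE (hHs : ∀ i, IsClosed (Hs i)) (hX : Xok X Kc Hs u1) (hNP : NP ≤ 4093) {E : List (List ℕ)} {P : List ℕ}
    {Ev : List (List ℕ)} {Pr : List (ℕ × List ℕ)} {Inv : List (List ℕ)}
    (hE : ∀ f M, LegX F B z σ (XE X f) u1 s0 s1 M → ∀ c ∈ E, Ho M c)
    (hPr : ∀ p ∈ Pr, ∀ h : p.1 < Ev.length, ∀ s u M M', s < u → LegAt F B z σ u1 s0 s1 s M →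
      LegAt F B z σ u1 s0 s1 u M' → (∀ l ∈ Ev[p.1], lv M l) → (∀ l ∈ p.2, lv M' l) → False)
    (H : PatE NP NW TB TC nm E P Ev Pr Inv) : ¬ RlX F B z σ X u1 s0 s1 P := by
  rintro ⟨M0, hM0, hP0⟩
  have hP : ∀ f M, LegX F B z σ (XE X f) u1 s0 s1 M → ∀ l ∈ P, lv M l := fun f M hM l hl =>
    (lv_transferE hX (xok_XE hX f) (by omega) hM0 hM (H.p0 l hl)).1 (hP0 l hl)
  obtain ⟨u0, hu0, t0, t1, L0, R0, S0, e0, e1, -⟩ := hM0
  have S1 := st4_rs S0
  rw [e0, e1] at S1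
  let W : Fin Ev.length → Set ℝ := fun j => evS F B z σ u1 s0 s1 Ev[j]
  have hcl : ∀ (j : (Cn NW TC ⊕ Fin nm) ⊕ Fin Ev.length) (q : Fin 6),
      IsClosed (Df T (Zf u1 TC z NW) Hs W j q) := by
    rintro ((c | i) | j) q
    · exact shD_closed T _ c q
    · exact hHs i
    · exact isClosed_closure
  obtain ⟨⟨ua, hua, ka1, ka2, ka3, ka4, ka5, ka6⟩, ⟨ub, hub, kb1, kb2, kb3, kb4, kb5, kb6⟩, hV⟩ :=
    gen_states_all F.h F.l3 (D := Df T (Zf u1 TC z NW) Hs W) hcl S1.h0 S1.h1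
  have eA : ∀ (r : ℕ) (u : ℝ), (fun c => bAH (Df T (Zf u1 TC z NW) Hs W) r u1 u (Sum.inl c)) =
      bAH (Dh T (Zf u1 TC z NW) Hs) r u1 u := fun r u => bAH_df
  have eB : ∀ (r : ℕ) (u : ℝ), (fun c => bBH (Df T (Zf u1 TC z NW) Hs W) r u1 u (Sum.inl c)) =
      bBH (Dh T (Zf u1 TC z NW) Hs) r u1 u := fun r u => bBH_df
  -- the clauses of the pair lemmas
  have hpair : ∀ (u : ℝ) (hu : u ∈ Ioo u1 (u1 + 1)) (t0 t1 L R : Fin NW × Fin 6 → Fin 6 × Fin 6)
      (S : St4 U T (Yw u1 u TC z NW) u1 u t0 t1 L R), rs TC t0 = s0 → rs TC t1 = s1 →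
      ∀ G : ℕ → Fin Ev.length → Prop,
      (∀ j, G 1 j → ∃ m : Fin 6, (closure (W j) ∩ Ioo (u1 + m.val) (u + m.val)).Nonempty) →
      ∀ p ∈ Pr, Ho (xT (mS F B z σ hu S) (XE X (fv G) u t0 t1 L R)) (prC p) := by
    intro u hu t0 t1 L R S f0 f1 G hG p hp
    by_cases h1 : av (xT (mS F B z σ hu S) (XE X (fv G) u t0 t1 L R)) (fA p.1 1)
    · obtain ⟨h2, h3⟩ := (av_fA hNP (by norm_num)).1 h1
      obtain ⟨m, h4⟩ := hG _ h3
      obtain ⟨s, ⟨M, hM, hMe⟩, hs⟩ := ex_ev evS_sub h4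
      have h5 : ¬ ∀ l ∈ p.2, lv (mS F B z σ hu S) l := fun h5 =>
        hPr p hp h2 s u M _ hs hM ⟨hu, t0, t1, L, R, S, f0, f1, rfl⟩ hMe h5
      push Not at h5
      obtain ⟨l, hl, h6⟩ := h5
      refine ⟨ngl l, List.mem_cons_of_mem _ (List.mem_map.2 ⟨l, hl, rfl⟩), lv_ngl.2 ?_⟩
      rw [lv_xT (H.r0 p hp l hl)]
      exact h6
    · exact ⟨_, List.mem_cons_self, Vale.Agent.P032.H820.K.lv_ng.2 h1⟩
  refine absurd (hV (fun s A D => ∃ Fm : Fin Ev.length → Prop, (∀ j, Fm j → ∃ m, A (Sum.inr j) m 0) ∧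
    ∀ C ∈ Inv, ∃ l ∈ C, slE σ T (Zf u1 TC z NW) Kc s (fun c => A (Sum.inl c)) (fun c => D (Sum.inl c)) Fm l)
    ?_ ?_) ?_
  · -- start
    obtain ⟨a0', a1', La, Ra, Sa, f0, f1, f2, f3⟩ := exists_st4 F (z := z) (u1 := u1) (u := ua)
      (s0 := s0) (s1 := s1) (L := s0) (R := s0) ⟨S1.h0, S1.h1, ka1, ka2⟩
    let G : ℕ → Fin Ev.length → Prop := fun _ _ => False
    have hM : LegX F B z σ (XE X (fv G)) u1 s0 s1
        (xT (mS F B z σ hua Sa) (XE X (fv G) ua a0' a1' La Ra)) := ⟨ua, hua, a0', a1', La, Ra, Sa, f0, f1, rfl⟩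
    refine ⟨fun _ => False, fun _ h => h.elim, fun C hC => ?_⟩
    have h1 := H.init _ (hE _ _ hM) (hP _ _ hM) (fun n hn r hr => ?_) (fun j h => ?_) C hC
    · have h2 := (ho_rcE hX hNP (by norm_num) (H.i0 C hC)).1 h1
      rw [f0, ← eA, ← eB] at h2
      exact h2
    · rw [av_rnE hX hNP (by omega) hn, av_rnE hX hNP (by norm_num) hn, f0, f1, f2, f3, ← eA, ← eA, ← eB, ← eB]
      interval_cases r
      · exact Iff.rfl
      · unfold stv bAH bBH
        simp only [one_ne_zero, if_false, if_true]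
        rw [ka3, ka4]
      · unfold stv bAH bBH
        norm_num
        rw [ka5, ka6]
    · exact ((av_fA hNP (by norm_num)).1 h).2
  · -- step
    rintro u hu L hL R hR ⟨Fm, hFm, hV1⟩
    obtain ⟨a0', a1', La, Ra, Sa, f0, f1, f2, f3⟩ := exists_st4 F (z := z) (u1 := u1) (u := u)
      (s0 := s0) (s1 := s1) (L := L) (R := R) ⟨S1.h0, S1.h1, hL, hR⟩
    let F' : Fin Ev.length → Prop := fun j => Fm j ∨ ∀ l ∈ Ev[j], lv (mS F B z σ hu Sa) l
    let G : ℕ → Fin Ev.length → Prop := fun r => if r = 1 then Fm else if r = 2 then F' else fun _ => False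
    have hM : LegX F B z σ (XE X (fv G)) u1 s0 s1
        (xT (mS F B z σ hu Sa) (XE X (fv G) u a0' a1' La Ra)) := ⟨u, hu, a0', a1', La, Ra, Sa, f0, f1, rfl⟩
    have hlv : ∀ j (h : j < Ev.length), (∀ l ∈ Ev[j], lv (xT (mS F B z σ hu Sa) (XE X (fv G) u a0' a1' La Ra)) l) ↔
        ∀ l ∈ Ev[j], lv (mS F B z σ hu Sa) l := fun j h =>
      forall₂_congr fun l hl => lv_xT (H.v0 _ (List.getElem_mem h) l hl)
    refine ⟨F', fun j hj => ?_, fun C hC => ?_⟩
    · rcases hj with hj | hj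
      · obtain ⟨m, v, h1, h2, h3⟩ := hFm j hj
        exact ⟨m, v, h1, h2, h3.le⟩
      · refine ⟨0, u, subset_closure ⟨_, ⟨hu, a0', a1', La, Ra, Sa, f0, f1, rfl⟩, hj⟩, ?_, ?_⟩
        · show u1 + ((0 : Fin 6).val : ℝ) < u
          simpa using hu.1
        · show u ≤ u + ((0 : Fin 6).val : ℝ)
          simp
    · have h1 := H.step _ (hE _ _ hM) (hP _ _ hM) (fun j h => ?_) (fun j hj h => ?_) (fun j hj h => ?_)
        (hpair u hu _ _ _ _ Sa f0 f1 G fun j hj => hFm j hj) (fun C hC => ?_) C hC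
      · have h2 := (ho_rcE hX hNP (by norm_num) (H.i0 C hC)).1 h1
        rw [f3, ← eA, ← eB] at h2
        exact h2
      · obtain ⟨h2, h3⟩ := (av_fA hNP (by norm_num)).1 h
        exact (av_fA hNP (by norm_num)).2 ⟨h2, Or.inl h3⟩
      · exact (av_fA hNP (by norm_num)).2 ⟨hj, Or.inr ((hlv j hj).1 h)⟩
      · obtain ⟨h2, h3⟩ := (av_fA hNP (by norm_num)).1 h
        rcases h3 with h3 | h3
        · exact Or.inl ((av_fA hNP (by norm_num)).2 ⟨h2, h3⟩)
        · exact Or.inr ((hlv j hj).2 h3)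
      · refine (ho_rcE hX hNP (by norm_num) (H.i0 C hC)).2 ?_
        rw [f2, ← eA, ← eB]
        exact hV1 C hC
  · -- end
    rintro ⟨Fm, hFm, hV1⟩
    obtain ⟨a0', a1', La, Ra, Sa, f0, f1, f2, f3⟩ := exists_st4 F (z := z) (u1 := u1) (u := ub)
      (s0 := s0) (s1 := s1) (L := s1) (R := s1) ⟨S1.h0, S1.h1, kb1, kb2⟩
    let G : ℕ → Fin Ev.length → Prop := fun _ => Fm
    have hM : LegX F B z σ (XE X (fv G)) u1 s0 s1
        (xT (mS F B z σ hub Sa) (XE X (fv G) ub a0' a1' La Ra)) := ⟨ub, hub, a0', a1', La, Ra, Sa, f0, f1, rfl⟩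
    refine H.fin _ (hE _ _ hM) (hP _ _ hM) (fun n hn r hr hr0 => ?_)
      (hpair ub hub _ _ _ _ Sa f0 f1 G fun j hj => ?_) (fun C hC => ?_)
    · rw [av_rnE hX hNP hr hn, av_rnE hX hNP (by norm_num) hn, f0, f1, f2, f3, ← eA, ← eA, ← eB, ← eB]
      interval_cases r
      · unfold stv bAH bBH
        norm_num
        rw [kb3, kb4]
      · unfold stv bAH bBH
        norm_num
        rw [kb5, kb6]
      · exact Iff.rfl
    · obtain ⟨m, hm⟩ := hFm j hj
      rw [← kb3] at hm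
      exact ⟨m, hm⟩
    · refine (ho_rcE hX hNP (by norm_num) (H.i0 C hC)).2 ?_
      rw [f1, ← eA, ← eB]
      exact hV1 C hC

end

/-! ### queries -/

/-- an equality of two readings, code `r + 4 s + 16 n` -/
def stcE (v : ℕ) : List ℕ :=
  [ng (rnE (Nat.mod v 4) (Nat.div v 16)), ps (rnE (Nat.mod (Nat.div v 4) 4) (Nat.div v 16))]

/-- admissible equalities at the start -/
def ok_sE (NW TC nm ne v : ℕ) : Bool :=
  okE NW TC nm ne (Nat.div v 16) && Nat.ble (Nat.mod v 4) 2 && Nat.ble (Nat.mod (Nat.div v 4) 4) 2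

/-- admissible equalities at the end -/
def ok_eE (NW TC nm ne v : ℕ) : Bool :=
  okE NW TC nm ne (Nat.div v 16) && Nat.ble 1 (Nat.mod v 4) && Nat.ble 1 (Nat.mod (Nat.div v 4) 4)

theorem ho_sE {nm ne : ℕ} {M : Md 2 NP NW (nbf 2 TB)} {v : ℕ} (h : Q0E TC nm ne M)
    (hv : ok_sE NW TC nm ne v = true) : Ho M (stcE v) := by
  unfold ok_sE at hv
  rw [Bool.and_eq_true, Bool.and_eq_true, Nat.ble_eq, Nat.ble_eq] at hv
  obtain ⟨⟨h1, h2⟩, h3⟩ := hv
  exact ho_stc fun h4 => (h _ h1 _ (Nat.lt_succ_of_le h3)).2 ((h _ h1 _ (Nat.lt_succ_of_le h2)).1 h4)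

theorem ho_eE {nm ne : ℕ} {M : Md 2 NP NW (nbf 2 TB)} {v : ℕ} (h : Q1E TC nm ne M)
    (hv : ok_eE NW TC nm ne v = true) : Ho M (stcE v) := by
  unfold ok_eE at hv
  rw [Bool.and_eq_true, Bool.and_eq_true, Nat.ble_eq, Nat.ble_eq] at hv
  obtain ⟨⟨h1, h2⟩, h3⟩ := hv
  exact ho_stc fun h4 => (h _ h1 _ (Nat.mod_lt _ (by norm_num)) h3).2
    ((h _ h1 _ (Nat.mod_lt _ (by norm_num)) h2).1 h4)

/-- the laws of the event `j` -/
def evC (j : ℕ) (e : List ℕ) : List (List ℕ) :=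
  [ng (fA j 1), ps (fA j 2)] :: (ps (fA j 2) :: e.map ngl) :: e.map fun l => [ng (fA j 2), ps (fA j 1), l]

/-- the laws of the events, numbered from `j` -/
def evL (Ev : List (List ℕ)) : ℕ → List (List ℕ) :=
  @List.rec (List ℕ) (fun _ => ℕ → List (List ℕ)) (fun _ => []) (fun e _ ih j => evC j e ++ ih (Nat.succ j)) Ev

theorem evL_cons (e : List ℕ) (Ev : List (List ℕ)) (j : ℕ) : evL (e :: Ev) j = evC j e ++ evL Ev (j + 1) := rfl

theorem mem_evL {Ev : List (List ℕ)} {c : List ℕ} : ∀ {k : ℕ}, c ∈ evL Ev k →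
    ∃ (j : ℕ) (h : j < Ev.length), c ∈ evC (k + j) Ev[j] := by
  induction Ev with
  | nil => intro k hc; exact absurd hc List.not_mem_nil
  | cons e Ev ih =>
    intro k hc
    rw [evL_cons] at hc
    rcases List.mem_append.1 hc with hc | hc
    · exact ⟨0, by simp, by simpa using hc⟩
    · obtain ⟨j, hj, h⟩ := ih hc
      refine ⟨j + 1, by simpa using hj, ?_⟩
      rw [show k + (j + 1) = k + 1 + j by ring]
      simpa using h

theorem ho_evL {M : Md 2 NP NW (nbf 2 TB)} {Ev : List (List ℕ)}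
    (h1 : ∀ j, av M (fA j 1) → av M (fA j 2))
    (h2 : ∀ j (h : j < Ev.length), (∀ l ∈ Ev[j], lv M l) → av M (fA j 2))
    (h3 : ∀ j (h : j < Ev.length), av M (fA j 2) → av M (fA j 1) ∨ ∀ l ∈ Ev[j], lv M l) :
    ∀ c ∈ evL Ev 0, Ho M c := by
  intro c hc
  obtain ⟨j, hj, hc⟩ := mem_evL hc
  rw [zero_add] at hc
  unfold evC at hc
  rcases List.mem_cons.1 hc with rfl | hc
  · exact ho_stc (h1 j)
  rcases List.mem_cons.1 hc with rfl | hc
  · by_cases h4 : ∀ l ∈ Ev[j], lv M l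
    · exact ⟨_, List.mem_cons_self, Vale.Agent.P032.H820.K.lv_ps.2 (h2 j hj h4)⟩
    · push Not at h4
      obtain ⟨l, h5, h6⟩ := h4
      exact ⟨ngl l, List.mem_cons_of_mem _ (List.mem_map.2 ⟨l, h5, rfl⟩), lv_ngl.2 h6⟩
  · obtain ⟨l, h5, rfl⟩ := List.mem_map.1 hc
    by_cases h6 : av M (fA j 2)
    · rcases h3 j hj h6 with h7 | h7
      · exact ⟨_, by simp, Vale.Agent.P032.H820.K.lv_ps.2 h7⟩
      · exact ⟨l, by simp, h7 l h5⟩
    · exact ⟨_, List.mem_cons_self, Vale.Agent.P032.H820.K.lv_ng.2 h6⟩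

/-- the event bits at the start -/
def evO (Ev : List (List ℕ)) : ℕ → List (List ℕ) :=
  @List.rec (List ℕ) (fun _ => ℕ → List (List ℕ)) (fun _ => []) (fun _ _ ih j => [ng (fA j 0)] :: ih (Nat.succ j)) Ev

theorem mem_evO {Ev : List (List ℕ)} {c : List ℕ} : ∀ {k : ℕ}, c ∈ evO Ev k → ∃ j, c = [ng (fA j 0)] := by
  induction Ev with
  | nil => intro k hc; exact absurd hc List.not_mem_nil
  | cons e Ev ih =>
    intro k hc
    have hc : c ∈ [ng (fA k 0)] :: evO Ev (k + 1) := hc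
    rcases List.mem_cons.1 hc with hc | hc
    · exact ⟨k, hc⟩
    · exact ih hc

/-- **A certified pattern with monitors and events from queries.** -/
theorem patE_of_q {nm : ℕ} {E : List (List ℕ)} {P : List ℕ} {Ev : List (List ℕ)} {Pr : List (ℕ × List ℕ)}
    {Inv : List (List ℕ)} {vs ve : List ℕ}
    (hP : alL (fun l => okP NP NW TC nm (Nat.div l 2)) P = true)
    (hI : alLL (fun C => alL (fun l => okE NW TC nm Ev.length (Nat.div l 2)) C) Inv = true)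
    (hv : alLL (fun C => alL (fun l => okN NP (Nat.div l 2)) C) Ev = true)
    (hr : ∀ p ∈ Pr, alL (fun l => okN NP (Nat.div l 2)) p.2 = true)
    (hs : alL (ok_sE NW TC nm Ev.length) vs = true) (he : alL (ok_eE NW TC nm Ev.length) ve = true)
    (q0 : ∀ C ∈ Inv, Qy NP NW TB (E ++ un P ++ evO Ev 0 ++ vs.map stcE ++ ngs (rcE 0 C)))
    (q1 : ∀ C ∈ Inv, Qy NP NW TB (E ++ un P ++ evL Ev 0 ++ Pr.map prC ++ Inv.map (rcE 1) ++ ngs (rcE 2 C)))
    (q2 : Qy NP NW TB (E ++ un P ++ Pr.map prC ++ ve.map stcE ++ Inv.map (rcE 3))) :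
    PatE NP NW TB TC nm E P Ev Pr Inv where
  p0 := alL_spec hP
  i0 := fun C hC => alL_spec (alLL_spec hI C hC)
  v0 := fun C hC => alL_spec (alLL_spec hv C hC)
  r0 := fun p hp => alL_spec (hr p hp)
  init := fun M hE hl h0 hf C hC => ho_of_q (q0 C hC) fun c hc => by
    rcases List.mem_append.1 hc with hc | hc
    · rcases List.mem_append.1 hc with hc | hc
      · rcases List.mem_append.1 hc with hc | hc
        · exact hE c hc
        · exact ho_un hl c hc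
      · obtain ⟨j, rfl⟩ := mem_evO hc
        exact ⟨_, List.mem_singleton_self _, Vale.Agent.P032.H820.K.lv_ng.2 (hf j)⟩
    · obtain ⟨v, hv, rfl⟩ := List.mem_map.1 hc
      exact ho_sE h0 (alL_spec hs v hv)
  step := fun M hE hl h1 h2 h3 hp hi C hC => ho_of_q (q1 C hC) fun c hc => by
    rcases List.mem_append.1 hc with hc | hc
    · rcases List.mem_append.1 hc with hc | hc
      · rcases List.mem_append.1 hc with hc | hc
        · rcases List.mem_append.1 hc with hc | hc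
          · exact hE c hc
          · exact ho_un hl c hc
        · exact ho_evL h1 h2 h3 c hc
      · obtain ⟨p, hp1, rfl⟩ := List.mem_map.1 hc
        exact hp p hp1
    · obtain ⟨C', hC', rfl⟩ := List.mem_map.1 hc
      exact hi C' hC'
  fin := fun M hE hl h1 hp hi => q2 M fun c hc => by
    rcases List.mem_append.1 hc with hc | hc
    · rcases List.mem_append.1 hc with hc | hc
      · rcases List.mem_append.1 hc with hc | hc
        · rcases List.mem_append.1 hc with hc | hc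
          · exact hE c hc
          · exact ho_un hl c hc
        · obtain ⟨p, hp1, rfl⟩ := List.mem_map.1 hc
          exact hp p hp1
      · obtain ⟨v, hv, rfl⟩ := List.mem_map.1 hc
        exact ho_eE h1 (alL_spec he v hv)
    · obtain ⟨C', hC', rfl⟩ := List.mem_map.1 hc
      exact hi C' hC'

end Vale.Agent.P032.H491
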